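import Vale.Agent.P267.H661.Smp

/-! P290Z, block BR, TAME: a non negative solution of a second order elliptic equation with a
zeroth order term that vanishes at a point vanishes near the point. -/

open scoped Topology ContDiff
open Filter Set Metric

set_option maxSynthPendingDepth 3
set_option linter.all false

noncomputable section

namespace Vale.Agent.P290Z.BR.TameAux

open Vale.Agent.P267.H661 (smp_open)

variable {E : Type*} [NormedAddCommGroup E] [NormedSpace ℝ E]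

/-- the weight -/
def wexp (ξ : E →L[ℝ] ℝ) (y : E) : ℝ := -Real.exp (-ξ y)

theorem wexp_neg (ξ : E →L[ℝ] ℝ) (y : E) : wexp ξ y < 0 := neg_lt_zero.2 (Real.exp_pos _)

theorem wexp_cd (ξ : E →L[ℝ] ℝ) {n : WithTop ℕ∞} : ContDiff ℝ n (wexp ξ) :=
  (Real.contDiff_exp.comp ξ.contDiff.neg).neg

theorem wexp_deriv (ξ : E →L[ℝ] ℝ) (y : E) : HasFDerivAt (wexp ξ) ((-wexp ξ y) • ξ) y := by
  have h := (ξ.hasFDerivAt (x := y)).neg.exp.neg
  refine (h.congr_fderiv ?_ : HasFDerivAt (fun y => -Real.exp (-ξ y)) _ y)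
  ext v
  simp [wexp]

theorem mul_deriv (ξ : E →L[ℝ] ℝ) {u : E → ℝ} {y : E} (hu : DifferentiableAt ℝ u y) :
    HasFDerivAt (fun y => wexp ξ y * u y) (wexp ξ y • (fderiv ℝ u y - u y • ξ)) y := by
  refine ((wexp_deriv ξ y).mul hu.hasFDerivAt).congr_fderiv ?_
  ext v
  simp
  ring

theorem mul_deriv2 (ξ : E →L[ℝ] ℝ) {u : E → ℝ} {y : E} (hu : ContDiffAt ℝ 2 u y) :
    fderiv ℝ (fderiv ℝ fun y => wexp ξ y * u y) y =
      wexp ξ y • (fderiv ℝ (fderiv ℝ u) y - (fderiv ℝ u y).smulRight ξ -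
        ξ.smulRight (fderiv ℝ u y) + u y • ξ.smulRight ξ) := by
  have h1 : (fderiv ℝ fun y => wexp ξ y * u y) =ᶠ[𝓝 y]
      fun y => wexp ξ y • (fderiv ℝ u y - u y • ξ) := by
    filter_upwards [hu.eventually (by simp)] with v hv
    exact (mul_deriv ξ (hv.differentiableAt (by simp))).fderiv
  have h2 : HasFDerivAt (fderiv ℝ u) (fderiv ℝ (fderiv ℝ u) y) y :=
    ((hu.fderiv_right (m := 1) (by norm_num)).differentiableAt (by simp)).hasFDerivAt
  have h3 : HasFDerivAt u (fderiv ℝ u y) y := (hu.differentiableAt (by simp)).hasFDerivAt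
  have h4 := (wexp_deriv ξ y).smul (h2.sub (h3.smul_const ξ))
  have h5 : HasFDerivAt (fun y => wexp ξ y • (fderiv ℝ u y - u y • ξ)) _ y := h4
  rw [h1.fderiv_eq, h5.fderiv]
  ext v w
  simp
  ring

variable [FiniteDimensional ℝ E]

/-- a non negative solution vanishes near a zero -/
theorem smp_zero {O : Set E} (hO : IsOpen O) {u : E → ℝ} (hu : ∀ y ∈ O, ContDiffAt ℝ 2 u y)
    {a : E → (E →L[ℝ] E →L[ℝ] ℝ) →L[ℝ] ℝ} {b : E → (E →L[ℝ] ℝ) →L[ℝ] ℝ} {c : E → ℝ}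
    (ha : ∀ y ∈ O, ContinuousAt a y) (hb : ∀ y ∈ O, ContinuousAt b y)
    (hc : ∀ y ∈ O, ContinuousAt c y)
    (hpos : ∀ y ∈ O, ∀ ξ : E →L[ℝ] ℝ, ξ ≠ 0 → 0 < a y (ξ.smulRight ξ))
    (hQ : ∀ y ∈ O, a y (fderiv ℝ (fderiv ℝ u) y) + b y (fderiv ℝ u y) + c y * u y = 0)
    (h0 : ∀ y ∈ O, 0 ≤ u y) {x1 : E} (hx1 : x1 ∈ O) (h1 : u x1 = 0) {ℓ : E →L[ℝ] ℝ}
    (hℓ : ℓ ≠ 0) : ∀ᶠ y in 𝓝 x1, u y = 0 := by
  obtain ⟨ξ, hξ⟩ : ∃ ξ : E →L[ℝ] ℝ, 0 < a x1 (ξ.smulRight ξ) + b x1 ξ + c x1 := by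
    have hA := hpos x1 hx1 ℓ hℓ
    set A := a x1 (ℓ.smulRight ℓ) with hAd
    set B := |b x1 ℓ| + |c x1| + 1 with hB
    have hB0 : 0 < B := by positivity
    refine ⟨(B / A + 1) • ℓ, ?_⟩
    have e1 : ((B / A + 1) • ℓ).smulRight ((B / A + 1) • ℓ) =
        ((B / A + 1) * (B / A + 1)) • ℓ.smulRight ℓ := by
      ext v w
      simp
      ring
    rw [e1, map_smul, map_smul, ← hAd, smul_eq_mul, smul_eq_mul]
    have e2 : (B / A + 1) * A = B + A := by field_simp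
    have h2 : 0 ≤ B / A := by positivity
    have h3 := neg_abs_le (b x1 ℓ)
    have h4 := neg_abs_le (c x1)
    have h5 := abs_nonneg (c x1)
    have h6 : |c x1| + 1 ≤ (B / A + 1) * A + b x1 ℓ := by rw [e2, hB]; linarith
    have h7 : (B / A + 1) * (|c x1| + 1) ≤ (B / A + 1) * ((B / A + 1) * A + b x1 ℓ) :=
      mul_le_mul_of_nonneg_left h6 (by positivity)
    nlinarith
  have hev : ∀ᶠ y in 𝓝 x1, y ∈ O ∧ 0 < a y (ξ.smulRight ξ) + b y ξ + c y := by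
    have h2 : ContinuousAt (fun y => a y (ξ.smulRight ξ) + b y ξ + c y) x1 :=
      (((ha x1 hx1).clm_apply continuousAt_const).add
        ((hb x1 hx1).clm_apply continuousAt_const)).add (hc x1 hx1)
    exact (Filter.Eventually.and (hO.mem_nhds hx1) (h2.eventually (lt_mem_nhds hξ)))
  obtain ⟨U, hUs, hU, hxU⟩ := _root_.mem_nhds_iff.1 hev
  let L1 : (E →L[ℝ] ℝ) →L[ℝ] E →L[ℝ] E →L[ℝ] ℝ := ContinuousLinearMap.smulRightL ℝ E (E →L[ℝ] ℝ) ξ
  let L2 : (E →L[ℝ] ℝ) →L[ℝ] E →L[ℝ] E →L[ℝ] ℝ :=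
    (ContinuousLinearMap.smulRightL ℝ E (E →L[ℝ] ℝ)).flip ξ
  have key := smp_open (u := fun y => wexp ξ y * u y) hU
    (fun y hy => (wexp_cd ξ).contDiffAt.mul (hu y (hUs hy).1)) (a := a)
    (b := fun y => b y + (a y).comp (L1 + L2)) (fun y hy => ha y (hUs hy).1)
    (fun y hy => (hb y (hUs hy).1).add ((ha y (hUs hy).1).clm_comp continuousAt_const))
    (fun y hy => hpos y (hUs hy).1) (fun y hy => ?_) (M := 0)
    (fun y hy => mul_nonpos_of_nonpos_of_nonneg (wexp_neg ξ y).le (h0 y (hUs hy).1)) hxU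
    (by rw [h1, mul_zero])
  · filter_upwards [key] with y hy
    exact (mul_eq_zero.1 hy).resolve_left (wexp_neg ξ y).ne
  · have hy2 := hu y (hUs hy).1
    have e1 : (L1 + L2) (fderiv ℝ u y - u y • ξ) = (fderiv ℝ u y).smulRight ξ +
        ξ.smulRight (fderiv ℝ u y) - (2 * u y) • ξ.smulRight ξ := by
      ext v w
      simp [L1, L2]
      ring
    rw [mul_deriv2 ξ hy2, (mul_deriv ξ (hy2.differentiableAt (by simp))).fderiv, map_smul, map_smul,
      ContinuousLinearMap.add_apply, ContinuousLinearMap.comp_apply, e1]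
    simp only [map_add, map_sub, map_smul, smul_eq_mul]
    have h2 := hQ y (hUs hy).1
    have h3 := mul_nonneg (mul_nonneg (neg_pos.2 (wexp_neg ξ y)).le (h0 y (hUs hy).1))
      (hUs hy).2.le
    have h4 : a y (fderiv ℝ (fderiv ℝ u) y) = -b y (fderiv ℝ u y) - c y * u y := by linarith
    rw [h4]
    linarith

end Vale.Agent.P290Z.BR.TameAux
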