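import Vale.Agent.P290.H158.GKer
import Vale.Agent.P290Z.BR.Tame.Smp

/-! P290Z, block BR, TAME: the positive Gauduchon factor. -/

open scoped Manifold ContDiff ComplexOrder Topology NNReal ComplexConjugate
open Filter Set Metric

set_option maxSynthPendingDepth 3
set_option linter.all false

noncomputable section

namespace Vale.Agent.P290Z.BR.TameAux

open Vale.Agent.P267.FL Vale.Agent.P290.H158
open Vale.Agent.P267.H469 (del11 S11 S20 S02 S01 S10 S21 S22 Om1 Om2 toF D1 D2 I22L I13L stokesL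
  intX_neg intX_smul intX_add reg_del11 reg_dbar0 reg_dbar1 wedge_mem)
open Vale.Agent.P267.H661 (gop cx cx_ck SOp ckFn_two' reg0_iff trh_cx)
open Vale.Agent.P272.K.LIN (CkFn RSm ckFn_const ckFn_continuous)

section lop

variable {E : Type*} [NormedAddCommGroup E] [NormedSpace ℝ E] {X : Type*} [TopologicalSpace X]
  [ChartedSpace E X] [FiniteDimensional ℝ E]

theorem zero_open (D : LOp E X) {ℓ : E →L[ℝ] ℝ} (hℓ : ℓ ≠ 0) {u : X → ℝ} (hu : CkFn E 2 u)
    (hQ : ∀ x, D.Q u x = 0) (h0 : ∀ x, 0 ≤ u x) {x : X} (hx0 : u x = 0) :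
    ∀ᶠ z in 𝓝 x, u z = 0 := by
  have he := chart_mem_atlas E x
  have hx := mem_chart_source E x
  set e := chartAt E x with hedef
  have key := smp_zero (u := fun y => u (e.symm y)) e.open_target
    (fun y hy => hu.at_target he hy) (a := D.A.a e) (b := D.b e) (c := fun y => D.c (e.symm y))
    (fun y hy => (D.A.smooth e he y hy).continuousAt)
    (fun y hy => (D.bsmooth e he y hy).continuousAt)
    (fun y hy => (D.csmooth.at_target he hy).continuousAt) (fun y hy => D.A.pos e he y hy)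
    (fun y hy => by
      have h2 := hQ (e.symm y)
      rw [D.eq _ hu e he _ (e.map_target hy), D.A.eq _ hu e he _ (e.map_target hy),
        e.right_inv hy] at h2
      exact h2) (fun y _ => h0 _) (e.map_source hx) (by rw [e.left_inv hx]; exact hx0) hℓ
  have h5 : Tendsto e (𝓝 x) (𝓝 (e x)) := e.continuousAt hx
  filter_upwards [h5.eventually key, e.open_source.mem_nhds hx] with z hz hzs
  rwa [e.left_inv hzs] at hz

theorem pos_of_nonneg [PreconnectedSpace X] (D : LOp E X) {ℓ : E →L[ℝ] ℝ} (hℓ : ℓ ≠ 0)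
    {u : X → ℝ} (hu : CkFn E 2 u) (hQ : ∀ x, D.Q u x = 0) (h0 : ∀ x, 0 ≤ u x)
    (hne : ∃ x, u x ≠ 0) (x : X) : 0 < u x := by
  refine lt_of_le_of_ne (h0 x) fun hx => ?_
  have hcl : IsClopen {x | u x = 0} :=
    ⟨isClosed_eq (ckFn_continuous hu) continuous_const,
      isOpen_iff_mem_nhds.2 fun y hy => zero_open D hℓ hu hQ h0 hy⟩
  obtain ⟨y, hy⟩ := hne
  have h2 : y ∈ {x | u x = 0} := by
    rw [hcl.eq_univ ⟨x, hx.symm⟩]
    exact mem_univ y
  exact hy h2

end lop

variable {X : Type*} [TopologicalSpace X] [ChartedSpace C2 X] [IsManifold 𝓘(ℂ, C2) ω X]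
variable {h : X → Matrix (Fin 2) (Fin 2) ℂ}

/-- the density `g det h` -/
def dens (h : X → Matrix (Fin 2) (Fin 2) ℂ) (g : X → ℝ) : X → ℂ := fun x => (g x : ℂ) * (h x).det

theorem dens_mem (hh : IsHerm h) {g : X → ℝ} (hg : CkFn C2 ∞ g) : dens h g ∈ S22 X := by
  intro e he z hz
  have h1 : loc2 1 e (dens h g) = fun z => (g (e.symm z) : ℂ) * (loc11 e h z).det := by
    funext z
    rw [det_loc11]
    simp only [loc2, dens, zpow_one, smul_eq_mul]
    ring
  rw [h1]
  exact (((cx_ck hg).at_target he hz).mul (detH_cd hh he hz)).contDiffWithinAt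

theorem det_pos (hh : IsHerm h) (x : X) : 0 < ((h x).det).re :=
  (Complex.lt_def.1 (hh.posDef x).det_pos).1

theorem dens_re (g : X → ℝ) (x : X) : (dens h g x).re = g x * ((h x).det).re :=
  Complex.re_ofReal_mul _ _

theorem uom_smul (c : ℝ) (u : X → ℝ) : uom h (fun x => c * u x) = (c : ℂ) • uom h u := by
  funext x
  simp only [uom, Pi.smul_apply, Complex.ofReal_mul, mul_smul]

theorem ddu_smul (hh : IsHerm h) (c : ℝ) {u : X → ℝ} (hu : CkFn C2 ∞ u) :
    ddu h (fun x => c * u x) = (c : ℂ) • ddu h u := by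
  have h1 := uom_reg le_rfl hh hu
  rw [ddu, ddu, uom_smul, Vale.Agent.P267.H469.del11_smul h1,
    Vale.Agent.P267.H469.dbar1_smul (reg_del11 h1)]

variable [T2Space X] [CompactSpace X]

theorem int_nonpos (hh : IsHerm h) {g : X → ℝ} (hg : CkFn C2 ∞ g) (h0 : ∀ x, g x ≤ 0) :
    (intX (dens h g)).re ≤ 0 ∧ (0 ≤ (intX (dens h g)).re → ∀ x, g x = 0) := by
  obtain ⟨h1, h2⟩ := intX_neg (dens_mem hh hg) fun x => by
    rw [dens_re]
    exact mul_nonpos_of_nonpos_of_nonneg (h0 x) (det_pos hh x).le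
  refine ⟨h1, fun h3 x => ?_⟩
  have h4 := h2 h3 x
  rw [dens_re] at h4
  exact (mul_eq_zero.1 h4).resolve_right (det_pos hh x).ne'

theorem int_smul (hh : IsHerm h) (c : ℝ) {g : X → ℝ} (hg : CkFn C2 ∞ g) :
    (intX (dens h fun x => c * g x)).re = c * (intX (dens h g)).re := by
  have h1 : (dens h fun x => c * g x) = (c : ℂ) • dens h g := by
    funext x
    simp only [dens, Pi.smul_apply, smul_eq_mul, Complex.ofReal_mul, mul_assoc]
  rw [h1, intX_smul _ (dens_mem hh hg), Complex.re_ofReal_mul]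

/-- integration by parts -/
theorem int_P (hh : IsHerm h) {u : X → ℝ} (hu : CkFn C2 ∞ u) {P : TwoF X} (hs : P.Smooth)
    (hc : P.Closed) (h11 : P.f11 = uom h u) {f : X → ℝ} (hf : CkFn C2 ∞ f) :
    intX (dens h fun x => u x * (gop hh).P f x) = 0 := by
  have hf0 : Reg0 ∞ 0 (cx f) := reg0_iff.2 (cx_ck hf)
  let A : Om1 X := (0, ⟨dbar0 0 (cx f), reg_dbar0 hf0⟩)
  let F : Om2 X := (⟨P.f20, hs.s20⟩, ⟨P.f11, hs.s11⟩, ⟨P.f02, hs.s02⟩)
  have hD : D2 F = 0 := by
    refine Prod.ext (Subtype.ext ?_) (Subtype.ext ?_)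
    · funext x j
      exact hc.1 x j
    · funext x i
      exact (congrFun (congrFun (Vale.Agent.P267.H469.d12_eq P) x) i).symm.trans (hc.2 x i)
  have h1 : intX ((toF (D1 A)).wedge (toF F)) = 0 := by
    have h2 := stokesL A F
    rw [hD, map_zero] at h2
    exact h2
  have a1 : (toF (D1 A)).f20 = 0 :=
    congrArg (fun s : S20 X => (s : X → ℂ)) (map_zero Vale.Agent.P267.H469.del10L)
  have a2 : (toF (D1 A)).f02 = 0 := Vale.Agent.P267.H469.dbar1_dbar0 hf0
  have a3 : (toF (D1 A)).f11 = ddb (cx f) := by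
    have h3 : dbar10 (0 : X → Fin 2 → ℂ) = 0 :=
      congrArg (fun s : S11 X => (s : X → Matrix (Fin 2) (Fin 2) ℂ))
        (map_zero Vale.Agent.P267.H469.dbar10L)
    change del1 (dbar0 0 (cx f)) + dbar10 (0 : X → Fin 2 → ℂ) = _
    rw [h3, add_zero]
    rfl
  have a4 : (toF F).f11 = uom h u := h11
  have h4 : (toF (D1 A)).wedge (toF F) =
      (-Complex.I) • dens h fun x => u x * (gop hh).P f x := by
    funext x
    have h5 := trh_cx hh (ckFn_two' hf) x
    rw [trh, Vale.Agent.P267.H469.trinv, inv_mul_eq_iff_eq_mul₀ (det_h_ne hh x)] at h5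
    simp only [TwoF.wedge, a1, a2, a3, a4, uom, dens, Pi.smul_apply, Pi.zero_apply,
      Matrix.smul_apply, smul_eq_mul, Complex.ofReal_mul]
    linear_combination (-Complex.I * (u x : ℂ)) * h5
  rw [h4, intX_smul _ (dens_mem hh (hu.mul ((gop hh).smooth_P hf)))] at h1
  exact (mul_eq_zero.1 h1).resolve_left (neg_ne_zero.2 Complex.I_ne_zero)

variable [ConnectedSpace X]

theorem int_eq (hh : IsHerm h) {u : X → ℝ} (hu : CkFn C2 ∞ u)
    (hP : ∀ f : X → ℝ, CkFn C2 ∞ f → intX (dens h fun x => u x * (gop hh).P f x) = 0)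
    {g : X → ℝ} (hg : CkFn C2 ∞ g) :
    (intX (dens h fun x => u x * g x)).re = (gop hh).c g * (intX (dens h u)).re := by
  obtain ⟨f, hf, hf'⟩ := (gop hh).c_spec hg
  have h1 : (dens h fun x => u x * g x) = (dens h fun x => u x * (gop hh).P f x) +
      dens h fun x => (gop hh).c g * u x := by
    funext x
    simp only [dens, Pi.add_apply, hf']
    push_cast
    ring
  rw [h1, intX_add (dens_mem hh (hu.mul ((gop hh).smooth_P hf)))
    (dens_mem hh ((ckFn_const _).mul hu)), hP f hf, zero_add, int_smul hh _ hu]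

theorem sign (hh : IsHerm h) {u : X → ℝ} (hu : CkFn C2 ∞ u) (hne : ∃ x, u x ≠ 0)
    (hP : ∀ f : X → ℝ, CkFn C2 ∞ f → intX (dens h fun x => u x * (gop hh).P f x) = 0) :
    ∃ c : ℝ, c ≠ 0 ∧ ∀ x, 0 ≤ c * u x := by
  set c := (intX (dens h u)).re with hc
  have hc0 : c ≠ 0 := fun h0 => by
    have h1 := int_eq hh hu hP hu.neg
    rw [← hc, h0, mul_zero] at h1
    obtain ⟨x, hx⟩ := hne
    have h2 := (int_nonpos hh (hu.mul hu.neg) fun x => by nlinarith [sq_nonneg (u x)]).2 h1.ge x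
    exact hx (by simpa using h2)
  refine ⟨c, hc0, fun x => ?_⟩
  by_contra hx
  have hg : CkFn C2 ∞ fun y => expNegInvGlue (-(c * u y)) :=
    CkFn.comp expNegInvGlue.contDiff ((ckFn_const c).mul hu).neg
  have h1 := (gop hh).c_pos hg (fun y => expNegInvGlue.nonneg _) (x0 := x)
    (expNegInvGlue.pos_of_pos (by linarith))
  have h2 := int_eq hh hu hP hg
  have h3 := (int_nonpos hh ((ckFn_const c).mul (hu.mul hg)) fun y => by
    rcases le_total 0 (c * u y) with h4 | h4
    · rw [expNegInvGlue.zero_of_nonpos (by linarith), mul_zero, mul_zero]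
    · rw [← mul_assoc]
      exact mul_nonpos_of_nonpos_of_nonneg h4 (expNegInvGlue.nonneg _)).1
  rw [int_smul hh c (hu.mul hg), h2, ← hc] at h3
  have h5 := mul_pos h1 (mul_self_pos.2 hc0)
  nlinarith

/-- **the positive factor** -/
theorem exists_pos (hh : IsHerm h) {u : X → ℝ} (hu : CkFn C2 ∞ u) (hne : ∃ x, u x ≠ 0)
    (h0 : ∀ x, ddu h u x = 0) {P : TwoF X} (hs : P.Smooth) (hc : P.Closed)
    (h11 : P.f11 = uom h u) :
    ∃ v : X → ℝ, CkFn C2 ∞ v ∧ (∀ x, 0 < v x) ∧ ∀ x, ddu h v x = 0 := by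
  obtain ⟨c, hc0, hc1⟩ := sign hh hu hne fun f hf => int_P hh hu hs hc h11 hf
  have hv : CkFn C2 ∞ fun x => c * u x := (ckFn_const c).mul hu
  have h1 : ∀ x, ddu h (fun x => c * u x) x = 0 := fun x => by
    rw [ddu_smul hh c hu, Pi.smul_apply, h0, smul_zero]
  have hℓ : Complex.reCLM.comp (ContinuousLinearMap.proj (R := ℝ) (φ := fun _ : Fin 2 => ℂ) 0) ≠
      0 := fun e => by
    have h2 := congrArg (fun l : C2 →L[ℝ] ℝ => l fun _ => 1) e
    simp at h2
  obtain ⟨x0, hx0⟩ := hne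
  refine ⟨_, hv, pos_of_nonneg (gLOp hh) hℓ (ckFn_two' hv) (fun x => ?_) hc1
    ⟨x0, mul_ne_zero hc0 hx0⟩, h1⟩
  show (Qc h (fun x => c * u x) x).re = 0
  rw [Qc, h1, zero_div, mul_zero, Complex.zero_re]

theorem isHerm_smul (hh : IsHerm h) {v : X → ℝ} (hv : CkFn C2 ∞ v) (h0 : ∀ x, 0 < v x) :
    IsHerm fun x => (v x : ℂ) • h x := by
  refine ⟨fun x => (hh.posDef x).smul (Complex.zero_lt_real.2 (h0 x)), ?_⟩
  have h1 : (fun x => (v x : ℂ) • h x) = (-Complex.I) • uom h v := by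
    funext x
    simp only [uom, Pi.smul_apply, smul_smul]
    congr 1
    linear_combination (v x : ℂ) * Complex.I_mul_I
  rw [h1]
  exact (S11 X).smul_mem _ (uom_reg le_rfl hh hv)

theorem uom_real (hh : IsHerm h) (u : X → ℝ) (x : X) (i j : Fin 2) :
    uom h u x j i = -conj (uom h u x i j) := by
  simp only [uom, Matrix.smul_apply, smul_eq_mul, map_mul, Complex.conj_ofReal, Complex.conj_I,
    Vale.Agent.P267.H469.herm_entries (hh.posDef x).1]
  ring

/-- the square of a real form with positive `(1,1)`-part -/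
theorem sq_pos (hh : IsHerm h) {P : TwoF X} (hs : P.Smooth) (hr : P.Real)
    (h11 : P.f11 = fun x => Complex.I • h x) : 0 < (intX (P.wedge P)).re := by
  have hm := wedge_mem hs hs
  have h1 : ∀ x, 0 < (P.wedge P x).re := fun x => by
    have h2 : P.wedge P x = 2 * (P.f02 x * conj (P.f02 x)) + 2 * (h x).det := by
      simp only [TwoF.wedge, h11, (hr x).1, Matrix.smul_apply, smul_eq_mul, Matrix.det_fin_two]
      linear_combination (-2 * (h x 0 0 * h x 1 1 - h x 0 1 * h x 1 0)) * Complex.I_mul_I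
    rw [h2, Complex.mul_conj]
    have h3 := det_pos hh x
    have h4 := Complex.normSq_nonneg (P.f02 x)
    simp only [Complex.add_re, Complex.mul_re, Complex.re_ofNat, Complex.im_ofNat,
      Complex.ofReal_re, zero_mul, sub_zero]
    linarith
  have h5 := intX_neg ((S22 X).smul_mem (-1) hm) fun x => by
    rw [Pi.smul_apply, smul_eq_mul, neg_one_mul, Complex.neg_re]
    exact neg_nonpos.2 (h1 x).le
  rw [intX_smul _ hm, neg_one_mul, Complex.neg_re] at h5
  by_contra h6
  obtain ⟨x⟩ : Nonempty X := inferInstance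
  have h7 := h5.2 (by linarith) x
  rw [Pi.smul_apply, smul_eq_mul, neg_one_mul, Complex.neg_re] at h7
  have := h1 x
  linarith

end Vale.Agent.P290Z.BR.TameAux
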